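import Vale.Agent.P074.Defs

open MeasureTheory Set
open scoped ENNReal NNReal InnerProductSpace

namespace Vale.Agent.P074

/-- The `i`-th power cell (Laguerre cell) in `K` of the sites `y` with weights `ψ`. -/
def cell {d : ℕ} {ι : Type} (K : Set (E d)) (y : ι → E d) (ψ : ι → ℝ) (i : ι) : Set (E d) :=
  {x | x ∈ K ∧ ∀ j, ⟪x, y j⟫_ℝ - ψ j ≤ ⟪x, y i⟫_ℝ - ψ i}

/-- The convex potential `max_j (⟨x, y_j⟩ - ψ_j)`. -/
noncomputable def pot {d : ℕ} {ι : Type} [Fintype ι] [Nonempty ι] (y : ι → E d) (ψ : ι → ℝ)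
    (x : E d) : ℝ :=
  Finset.univ.sup' Finset.univ_nonempty (fun j => ⟪x, y j⟫_ℝ - ψ j)

/-- The `i`-th first moment of the cell, tested against `a`. -/
noncomputable def mom {d : ℕ} {ι : Type} (K : Set (E d)) (y : ι → E d) (ψ : ι → ℝ) (i : ι)
    (a : E d) : ℝ :=
  ∫ x in cell K y ψ i, ⟪x, a⟫_ℝ

/-- The volume of the `i`-th cell. -/
noncomputable def vol {d : ℕ} {ι : Type} (K : Set (E d)) (y : ι → E d) (ψ : ι → ℝ) (i : ι) : ℝ :=
  volume.real (cell K y ψ i)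

/-- The Gaussian weight. -/
noncomputable def gau {d : ℕ} (κ : ℝ) (x : E d) : ℝ := Real.exp (-(κ / 2) * ‖x‖ ^ 2)

end Vale.Agent.P074
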