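import Vale.Agent.P074.Basic

open MeasureTheory Set
open scoped ENNReal NNReal InnerProductSpace

namespace Vale.Agent.P074

/-! ### One dimensional Brunn-Minkowski -/

lemma bm_compact {A B C : Set ℝ} (hA : IsCompact A) (hB : IsCompact B) (hA0 : A.Nonempty)
    (hB0 : B.Nonempty) (hC : ∀ x ∈ A, ∀ y ∈ B, x + y ∈ C) :
    volume A + volume B ≤ volume C := by
  obtain ⟨a, haA, ha⟩ := hA.exists_isGreatest hA0
  obtain ⟨b, hbB, hb⟩ := hB.exists_isLeast hB0
  have h1 : volume A = volume ((fun t => t + (-b)) ⁻¹' A) := (measure_preimage_add_right _ _ _).symm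
  have h2 : volume B = volume ((fun t => t + (-a)) ⁻¹' B) := (measure_preimage_add_right _ _ _).symm
  have h3 : (fun t => t + (-b)) ⁻¹' A ⊆ C ∩ Iic (a + b) := by
    intro t ht
    have ht' : t + (-b) ∈ A := ht
    refine ⟨?_, ?_⟩
    · have := hC _ ht' b hbB
      simpa using this
    · have := ha ht'
      simp only [mem_Iic]
      linarith
  have h4 : (fun t => t + (-a)) ⁻¹' B \ {a + b} ⊆ C \ Iic (a + b) := by
    rintro t ⟨ht, htn⟩
    have ht' : t + (-a) ∈ B := ht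
    refine ⟨?_, ?_⟩
    · have := hC a haA _ ht'
      simpa using this
    · have := hb ht'
      simp only [mem_Iic, not_le]
      simp only [mem_singleton_iff] at htn
      exact lt_of_le_of_ne (by linarith) (Ne.symm htn)
  rw [h1, h2, ← measure_inter_add_sdiff C (measurableSet_Iic : MeasurableSet (Iic (a + b)))]
  refine add_le_add (measure_mono h3) ?_
  rw [← measure_sdiff_null (s := (fun t => t + (-a)) ⁻¹' B) (t := {a + b}) (by simp)]
  exact measure_mono h4

lemma bm_one {A B C : Set ℝ} (hA : MeasurableSet A) (hB : MeasurableSet B) (hA0 : A.Nonempty)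
    (hB0 : B.Nonempty) (hC : ∀ x ∈ A, ∀ y ∈ B, x + y ∈ C) :
    volume A + volume B ≤ volume C := by
  obtain ⟨a, ha⟩ := hA0
  obtain ⟨b, hb⟩ := hB0
  have key : ∀ K₁ ⊆ A, IsCompact K₁ → ∀ K₂ ⊆ B, IsCompact K₂ →
      volume K₁ + volume K₂ ≤ volume C := by
    intro K₁ hK₁ h₁ K₂ hK₂ h₂
    refine (add_le_add (measure_mono (subset_insert a K₁)) (measure_mono (subset_insert b K₂))).trans
      (bm_compact (h₁.insert a) (h₂.insert b) (insert_nonempty _ _) (insert_nonempty _ _) ?_)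
    intro x hx y hy
    refine hC x ?_ y ?_
    · rcases hx with rfl | hx
      · exact ha
      · exact hK₁ hx
    · rcases hy with rfl | hy
      · exact hb
      · exact hK₂ hy
  by_cases hCt : volume C = ⊤
  · rw [hCt]; exact le_top
  have key2 : ∀ K₂ ⊆ B, IsCompact K₂ → volume A + volume K₂ ≤ volume C := by
    intro K₂ hK₂ h₂
    have h1 : volume K₂ ≤ volume C := by
      have := key ∅ (empty_subset _) isCompact_empty K₂ hK₂ h₂
      simpa using this
    have h2 : volume A ≤ volume C - volume K₂ := by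
      rw [hA.measure_eq_iSup_isCompact]
      refine iSup_le fun K₁ => iSup_le fun hK₁ => iSup_le fun h₁ => ?_
      exact ENNReal.le_sub_of_add_le_right (ne_top_of_le_ne_top hCt h1) (key K₁ hK₁ h₁ K₂ hK₂ h₂)
    calc volume A + volume K₂ ≤ (volume C - volume K₂) + volume K₂ := add_le_add h2 le_rfl
      _ = volume C := tsub_add_cancel_of_le h1
  have h1 : volume A ≤ volume C := by
    have := key2 ∅ (empty_subset _) isCompact_empty
    simpa using this
  have h2 : volume B ≤ volume C - volume A := by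
    rw [hB.measure_eq_iSup_isCompact]
    refine iSup_le fun K₁ => iSup_le fun hK₁ => iSup_le fun h₁ => ?_
    refine ENNReal.le_sub_of_add_le_right (ne_top_of_le_ne_top hCt h1) ?_
    rw [add_comm]
    exact key2 K₁ hK₁ h₁
  calc volume A + volume B ≤ volume A + (volume C - volume A) := add_le_add le_rfl h2
    _ = volume C := add_tsub_cancel_of_le h1

lemma bm_half {A B C : Set ℝ} (hA : MeasurableSet A) (hB : MeasurableSet B) (hA0 : A.Nonempty)
    (hB0 : B.Nonempty) (hC : ∀ x ∈ A, ∀ y ∈ B, (1 / 2 : ℝ) • (x + y) ∈ C) :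
    volume A + volume B ≤ 2 * volume C := by
  have h1 := bm_one (C := (fun t => (1 / 2 : ℝ) * t) ⁻¹' C) hA hB hA0 hB0 (fun x hx y hy => hC x hx y hy)
  rw [Real.volume_preimage_mul_left (by norm_num)] at h1
  have h2 : ENNReal.ofReal |(1 / 2 : ℝ)⁻¹| = 2 := by norm_num
  rwa [h2] at h1

/-- Layer cake for functions bounded by one. -/
lemma layer {F : ℝ → ℝ≥0∞} (hF : Measurable F) (hF1 : ∀ x, F x ≤ 1) :
    ∫⁻ x, F x = ∫⁻ t in Ioi (0 : ℝ), volume {x | t < (F x).toReal} := by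
  rw [← lintegral_eq_lintegral_meas_lt volume (Filter.Eventually.of_forall fun x =>
    ENNReal.toReal_nonneg) hF.ennreal_toReal.aemeasurable]
  refine lintegral_congr fun x => ?_
  rw [ENNReal.ofReal_toReal (ne_top_of_le_ne_top ENNReal.one_ne_top (hF1 x))]

lemma amgm (a b : ℝ≥0∞) : 4 * (a * b) ≤ (a + b) ^ 2 := by
  by_cases ha : a = ⊤
  · subst ha
    simp
  by_cases hb : b = ⊤
  · subst hb
    simp
  lift a to ℝ≥0 using ha
  lift b to ℝ≥0 using hb
  norm_cast
  rw [← NNReal.coe_le_coe]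
  push_cast
  nlinarith [sq_nonneg ((a : ℝ) - b)]

/-- One dimensional Prekopa-Leindler for functions with supremum one. -/
lemma pl_one_normalized {f g h : ℝ → ℝ≥0∞} (hf : Measurable f) (hg : Measurable g)
    (hh : Measurable h) (hf1 : ∀ x, f x ≤ 1) (hg1 : ∀ x, g x ≤ 1)
    (hfs : ∀ l < (1 : ℝ≥0∞), ∃ x, l < f x) (hgs : ∀ l < (1 : ℝ≥0∞), ∃ x, l < g x)
    (hfgh : ∀ x y, f x * g y ≤ h ((1 / 2 : ℝ) • (x + y)) ^ 2) :
    (∫⁻ x, f x) * (∫⁻ x, g x) ≤ (∫⁻ x, h x) ^ 2 := by
  set h' : ℝ → ℝ≥0∞ := fun x => min (h x) 1 with hh'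
  have hh'm : Measurable h' := hh.min measurable_const
  have hh'1 : ∀ x, h' x ≤ 1 := fun x => min_le_right _ _
  have key : ∀ t ∈ Ioi (0 : ℝ), volume {x | t < (f x).toReal} + volume {x | t < (g x).toReal}
      ≤ 2 * volume {x | t < (h' x).toReal} := by
    intro t ht
    have ht0 : 0 < t := ht
    by_cases ht1 : t < 1
    · have hconv : ∀ (F : ℝ → ℝ≥0∞), (∀ x, F x ≤ 1) → ∀ x, t < (F x).toReal ↔
          ENNReal.ofReal t < F x := by
        intro F hF x
        exact (ENNReal.ofReal_lt_iff_lt_toReal ht0.le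
          (ne_top_of_le_ne_top ENNReal.one_ne_top (hF x))).symm
      have ht1' : ENNReal.ofReal t < 1 := by
        rw [← ENNReal.ofReal_one]
        exact (ENNReal.ofReal_lt_ofReal_iff one_pos).2 ht1
      refine bm_half (measurableSet_lt measurable_const hf.ennreal_toReal)
        (measurableSet_lt measurable_const hg.ennreal_toReal) ?_ ?_ ?_
      · obtain ⟨x, hx⟩ := hfs _ ht1'
        exact ⟨x, (hconv f hf1 x).2 hx⟩
      · obtain ⟨x, hx⟩ := hgs _ ht1'
        exact ⟨x, (hconv g hg1 x).2 hx⟩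
      · intro x hx y hy
        have hx' := (hconv f hf1 x).1 hx
        have hy' := (hconv g hg1 y).1 hy
        refine (hconv h' hh'1 _).2 ?_
        rw [hh', lt_min_iff]
        refine ⟨?_, ht1'⟩
        by_contra hcon
        push Not at hcon
        have h1 := hfgh x y
        have h2 : h ((1 / 2 : ℝ) • (x + y)) ^ 2 ≤ ENNReal.ofReal t ^ 2 :=
          pow_le_pow_left₀ zero_le hcon 2
        have h3 : ENNReal.ofReal t ^ 2 < f x * g y := by
          rw [sq]
          exact ENNReal.mul_lt_mul hx' hy'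
        exact absurd (h1.trans h2) (not_le.2 h3)
    · have hempty : ∀ (F : ℝ → ℝ≥0∞), (∀ x, F x ≤ 1) → {x | t < (F x).toReal} = ∅ := by
        intro F hF
        rw [eq_empty_iff_forall_notMem]
        intro x hx
        have h1 : (F x).toReal ≤ 1 := by
          have := ENNReal.toReal_mono ENNReal.one_ne_top (hF x)
          simpa using this
        have hx' : t < (F x).toReal := hx
        linarith
      rw [hempty f hf1, hempty g hg1]
      simp
  have hmeas : ∀ (F : ℝ → ℝ≥0∞), Measurable fun t : ℝ => volume {x | t < (F x).toReal} := by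
    intro F
    refine Antitone.measurable ?_
    intro s t hst
    exact measure_mono fun x hx => lt_of_le_of_lt hst hx
  have hsum : (∫⁻ x, f x) + (∫⁻ x, g x) ≤ 2 * ∫⁻ x, h x := by
    calc (∫⁻ x, f x) + (∫⁻ x, g x)
        = ∫⁻ t in Ioi (0 : ℝ), (volume {x | t < (f x).toReal} + volume {x | t < (g x).toReal}) := by
          rw [layer hf hf1, layer hg hg1, lintegral_add_left (hmeas f)]
      _ ≤ ∫⁻ t in Ioi (0 : ℝ), 2 * volume {x | t < (h' x).toReal} :=
          setLIntegral_mono ((hmeas h').const_mul 2) key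
      _ = 2 * ∫⁻ x, h' x := by
          rw [lintegral_const_mul _ (hmeas h'), layer hh'm hh'1]
      _ ≤ 2 * ∫⁻ x, h x := by
          gcongr with x
          exact min_le_left _ _
  have h4 : 4 * ((∫⁻ x, f x) * (∫⁻ x, g x)) ≤ 4 * (∫⁻ x, h x) ^ 2 := by
    refine (amgm _ _).trans ((pow_le_pow_left₀ zero_le hsum 2).trans (le_of_eq ?_))
    ring
  exact (ENNReal.mul_le_mul_iff_right (by norm_num) (by norm_num)).1 h4

/-- One dimensional Prekopa-Leindler for bounded functions. -/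
lemma pl_one_bounded {f g h : ℝ → ℝ≥0∞} (hf : Measurable f) (hg : Measurable g)
    (hh : Measurable h) {N : ℝ≥0∞} (hN : N ≠ ⊤) (hf1 : ∀ x, f x ≤ N) (hg1 : ∀ x, g x ≤ N)
    (hfgh : ∀ x y, f x * g y ≤ h ((1 / 2 : ℝ) • (x + y)) ^ 2) :
    (∫⁻ x, f x) * (∫⁻ x, g x) ≤ (∫⁻ x, h x) ^ 2 := by
  set M := ⨆ x, f x with hM
  set M' := ⨆ x, g x with hM'
  have hMt : M ≠ ⊤ := ne_top_of_le_ne_top hN (iSup_le hf1)
  have hMt' : M' ≠ ⊤ := ne_top_of_le_ne_top hN (iSup_le hg1)
  by_cases hM0 : M = 0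
  · have : ∀ x, f x = 0 := fun x => le_antisymm ((le_iSup f x).trans hM0.le) zero_le
    simp [this]
  by_cases hM0' : M' = 0
  · have : ∀ x, g x = 0 := fun x => le_antisymm ((le_iSup g x).trans hM0'.le) zero_le
    simp [this]
  set c : ℝ≥0∞ := (M * M') ^ (1 / 2 : ℝ) with hc
  have hMM0 : M * M' ≠ 0 := mul_ne_zero hM0 hM0'
  have hMMt : M * M' ≠ ⊤ := ENNReal.mul_ne_top hMt hMt'
  have hc2 : c ^ 2 = M * M' := by
    rw [hc, ← ENNReal.rpow_natCast, ← ENNReal.rpow_mul]
    norm_num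
  have hc0 : c ≠ 0 := by
    intro h0
    rw [h0] at hc2
    exact hMM0 (by rw [← hc2]; simp)
  have hct : c ≠ ⊤ := by
    intro h0
    rw [h0] at hc2
    exact hMMt (by rw [← hc2]; simp)
  have hsup : ∀ (F : ℝ → ℝ≥0∞) (m : ℝ≥0∞), m = ⨆ x, F x → m ≠ 0 → m ≠ ⊤ →
      (∀ x, F x * m⁻¹ ≤ 1) ∧ ∀ l < (1 : ℝ≥0∞), ∃ x, l < F x * m⁻¹ := by
    intro F m hm h0 ht
    constructor
    · intro x
      calc F x * m⁻¹ ≤ m * m⁻¹ := by
            gcongr
            rw [hm]; exact le_iSup F x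
        _ = 1 := ENNReal.mul_inv_cancel h0 ht
    · intro l hl
      have h1 : l * m < m := by
        calc l * m < 1 * m := (ENNReal.mul_lt_mul_iff_left h0 ht).2 hl
          _ = m := one_mul m
      rw [hm] at h1
      obtain ⟨x, hx⟩ := lt_iSup_iff.1 h1
      rw [← hm] at hx
      refine ⟨x, ?_⟩
      have h2 : l = l * m * m⁻¹ := by
        rw [mul_assoc, ENNReal.mul_inv_cancel h0 ht, mul_one]
      rw [h2]
      exact (ENNReal.mul_lt_mul_iff_left (ENNReal.inv_ne_zero.2 ht) (ENNReal.inv_ne_top.2 h0)).2 hx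
  obtain ⟨a1, a2⟩ := hsup f M hM hM0 hMt
  obtain ⟨b1, b2⟩ := hsup g M' hM' hM0' hMt'
  have key := pl_one_normalized (hf.mul_const M⁻¹) (hg.mul_const M'⁻¹) (hh.mul_const c⁻¹)
    a1 b1 a2 b2 (fun x y => by
      calc f x * M⁻¹ * (g y * M'⁻¹) = (f x * g y) * (M⁻¹ * M'⁻¹) := by ring
        _ ≤ h ((1 / 2 : ℝ) • (x + y)) ^ 2 * (M⁻¹ * M'⁻¹) := by
            gcongr
            exact hfgh x y
        _ = (h ((1 / 2 : ℝ) • (x + y)) * c⁻¹) ^ 2 := by
            rw [mul_pow, ← ENNReal.inv_pow, hc2,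
              ENNReal.mul_inv (Or.inl hM0) (Or.inl hMt)])
  rw [lintegral_mul_const _ hf, lintegral_mul_const _ hg, lintegral_mul_const _ hh] at key
  have h1 : (∫⁻ x, f x) * M⁻¹ * ((∫⁻ x, g x) * M'⁻¹) * (M * M')
      = (∫⁻ x, f x) * (∫⁻ x, g x) := by
    calc (∫⁻ x, f x) * M⁻¹ * ((∫⁻ x, g x) * M'⁻¹) * (M * M')
        = (∫⁻ x, f x) * (∫⁻ x, g x) * (M * M⁻¹) * (M' * M'⁻¹) := by ring
      _ = _ := by
        rw [ENNReal.mul_inv_cancel hM0 hMt, ENNReal.mul_inv_cancel hM0' hMt', mul_one, mul_one]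
  have h2 : ((∫⁻ x, h x) * c⁻¹) ^ 2 * (M * M') = (∫⁻ x, h x) ^ 2 := by
    rw [← hc2]
    calc ((∫⁻ x, h x) * c⁻¹) ^ 2 * c ^ 2 = (∫⁻ x, h x) ^ 2 * (c * c⁻¹) ^ 2 := by ring
      _ = _ := by rw [ENNReal.mul_inv_cancel hc0 hct, one_pow, mul_one]
  rw [← h1, ← h2]
  gcongr

/-- The Prekopa-Leindler property (parameter one half). -/
def PL (X : Type*) [AddCommGroup X] [Module ℝ X] [MeasureSpace X] : Prop :=
  ∀ f g h : X → ℝ≥0∞, Measurable f → Measurable g → Measurable h →
    (∀ x y, f x * g y ≤ h ((1 / 2 : ℝ) • (x + y)) ^ 2) →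
    (∫⁻ x, f x) * (∫⁻ x, g x) ≤ (∫⁻ x, h x) ^ 2

lemma iSup_trunc (a : ℝ≥0∞) : ⨆ n : ℕ, min a (n : ℝ≥0∞) = a := by
  rw [← inf_iSup_eq, ENNReal.iSup_natCast]
  simp

lemma lintegral_trunc {f : ℝ → ℝ≥0∞} (hf : Measurable f) :
    ∫⁻ x, f x = ⨆ n : ℕ, ∫⁻ x, min (f x) (n : ℝ≥0∞) := by
  rw [← lintegral_iSup (fun n => hf.min measurable_const)]
  · exact lintegral_congr fun x => (iSup_trunc (f x)).symm
  · intro m n hmn x
    exact min_le_min le_rfl (by exact_mod_cast hmn)

lemma pl_real : PL ℝ := by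
  intro f g h hf hg hh hfgh
  rw [lintegral_trunc hf, lintegral_trunc hg, ENNReal.iSup_mul]
  refine iSup_le fun n => ?_
  rw [ENNReal.mul_iSup]
  refine iSup_le fun m => ?_
  have hb : ∀ k : ℕ, ∀ (F : ℝ → ℝ≥0∞), ∀ x, min (F x) (k : ℝ≥0∞) ≤ (k : ℝ≥0∞) :=
    fun k F x => min_le_right _ _
  refine pl_one_bounded (N := ((max n m : ℕ) : ℝ≥0∞)) (hf.min measurable_const)
    (hg.min measurable_const) hh (ENNReal.natCast_ne_top _) ?_ ?_ ?_
  · intro x
    exact (min_le_right _ _).trans (by exact_mod_cast le_max_left n m)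
  · intro x
    exact (min_le_right _ _).trans (by exact_mod_cast le_max_right n m)
  · intro x y
    refine le_trans ?_ (hfgh x y)
    exact mul_le_mul' (min_le_left _ _) (min_le_left _ _)

lemma pl_prod {X Y : Type*} [AddCommGroup X] [Module ℝ X] [MeasureSpace X]
    [AddCommGroup Y] [Module ℝ Y] [MeasureSpace Y] [SFinite (volume : Measure Y)]
    (hX : PL X) (hY : PL Y) : PL (X × Y) := by
  intro f g h hf hg hh hfgh
  have hint : ∀ F : X × Y → ℝ≥0∞, Measurable F → ∫⁻ z, F z = ∫⁻ x, ∫⁻ y, F (x, y) := by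
    intro F hF
    exact lintegral_prod _ hF.aemeasurable
  rw [hint f hf, hint g hg, hint h hh]
  refine hX _ _ _ hf.lintegral_prod_right' hg.lintegral_prod_right' hh.lintegral_prod_right' ?_
  intro x x'
  refine hY _ _ _ (hf.comp measurable_prodMk_left) (hg.comp measurable_prodMk_left)
    (hh.comp measurable_prodMk_left) ?_
  intro y y'
  exact hfgh (x, y) (x', y')

lemma pl_transfer {X Y : Type*} [AddCommGroup X] [Module ℝ X] [MeasureSpace X]
    [AddCommGroup Y] [Module ℝ Y] [MeasureSpace Y] (e : X → Y)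
    (he : MeasurePreserving e volume volume)
    (hadd : ∀ x y, e ((1 / 2 : ℝ) • (x + y)) = (1 / 2 : ℝ) • (e x + e y)) (hX : PL X) : PL Y := by
  intro f g h hf hg hh hfgh
  rw [← he.lintegral_comp hf, ← he.lintegral_comp hg, ← he.lintegral_comp hh]
  refine hX _ _ _ (hf.comp he.measurable) (hg.comp he.measurable) (hh.comp he.measurable) ?_
  intro x y
  rw [hadd]
  exact hfgh _ _

lemma pl_fin (n : ℕ) : PL (Fin n → ℝ) := by
  induction n with
  | zero =>
    intro f g h hf hg hh hfgh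
    rw [Measure.volume_pi_eq_dirac 0, lintegral_dirac, lintegral_dirac, lintegral_dirac]
    have := hfgh 0 0
    simpa using this
  | succ n ih =>
    have hp := pl_prod pl_real ih
    have he := (volume_preserving_piFinSuccAbove (fun _ : Fin (n + 1) => ℝ) 0).symm
    refine pl_transfer _ he ?_ hp
    rintro ⟨a, b⟩ ⟨a', b'⟩
    ext i
    refine Fin.cases ?_ (fun j => ?_) i
    · simp [MeasurableEquiv.piFinSuccAbove]
    · simp [MeasurableEquiv.piFinSuccAbove, mul_add]

/-- Prekopa-Leindler inequality with parameter one half. -/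
theorem prekopa_half (d : ℕ) (f g h : E d → ℝ≥0∞) (hf : Measurable f) (hg : Measurable g)
    (hh : Measurable h) (hfgh : ∀ x y, f x * g y ≤ h ((1 / 2 : ℝ) • (x + y)) ^ 2) :
    (∫⁻ x, f x) * (∫⁻ x, g x) ≤ (∫⁻ x, h x) ^ 2 :=
  pl_transfer _ (PiLp.volume_preserving_toLp (Fin d)) (fun _ _ => rfl) (pl_fin d) f g h hf hg hh hfgh

end Vale.Agent.P074
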